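import Vale.Agent.P246.T.CC.CC1

/-! P263B: the space obtained by attaching a family of cells. -/

set_option linter.all false

namespace Vale.Agent.P263B39

open Topology Set Vale.Agent.P246.T Vale.Agent.P246.T.CC

variable {A Γ : Type} [TopologicalSpace A] {n : ℕ}

/-- the space of the pieces -/
abbrev Pc (A Γ : Type) (n : ℕ) : Type := A ⊕ (Σ _ : Γ, Dk n)

open Classical in
/-- the normal form of a point -/
noncomputable def nf (φ : Γ → C(bdk n, A)) : Pc A Γ n → Pc A Γ n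
  | .inl a => .inl a
  | .inr p => if h : ‖(p.2 : Fin n → ℝ)‖ = 1 then .inl (φ p.1 ⟨p.2, h⟩) else .inr p

/-- the space `A` with the cells attached along the maps `φ g` -/
def Att (φ : Γ → C(bdk n, A)) : Type := Quotient (Setoid.ker (nf φ))

variable (φ : Γ → C(bdk n, A))

instance : TopologicalSpace (Att φ) :=
  inferInstanceAs (TopologicalSpace (Quotient (Setoid.ker (nf φ))))

/-- the quotient map -/
noncomputable def mk (z : Pc A Γ n) : Att φ := Quotient.mk (Setoid.ker (nf φ)) z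

theorem mk_eq {z w : Pc A Γ n} : mk φ z = mk φ w ↔ nf φ z = nf φ w := Quotient.eq

theorem quot_mk : IsQuotientMap (mk φ) := isQuotientMap_quot_mk

theorem nf_bd (g : Γ) (x : Dk n) (h : ‖(x : Fin n → ℝ)‖ = 1) :
    nf φ (.inr ⟨g, x⟩) = .inl (φ g ⟨x, h⟩) := dif_pos h

theorem nf_int (g : Γ) (x : Dk n) (h : ‖(x : Fin n → ℝ)‖ ≠ 1) :
    nf φ (.inr ⟨g, x⟩) = .inr ⟨g, x⟩ := dif_neg h

/-- the inclusion of `A` -/
noncomputable def jA : C(A, Att φ) := ⟨fun a => mk φ (.inl a), (quot_mk φ).continuous.comp continuous_inl⟩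

/-- the characteristic maps -/
noncomputable def ch (g : Γ) : C(Dk n, Att φ) :=
  ⟨fun x => mk φ (.inr ⟨g, x⟩), (quot_mk φ).continuous.comp
    (continuous_inr.comp (continuous_sigmaMk (σ := fun _ : Γ => Dk n) (i := g)))⟩

theorem jA_inj : Function.Injective (jA φ) := fun _ _ h => Sum.inl.inj ((mk_eq φ).1 h)

theorem ch_bd (g : Γ) (x : bdk n) : ch φ g x = jA φ (φ g x) := (mk_eq φ).2 (nf_bd φ g x.1 x.2)

theorem ch_ne (g : Γ) (x : Dk n) (h : ‖(x : Fin n → ℝ)‖ ≠ 1) (a : A) : jA φ a ≠ ch φ g x := by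
  intro e
  have h1 := (mk_eq φ).1 e
  rw [nf_int φ g x h] at h1
  exact Sum.inl_ne_inr h1

theorem ch_inj {g g' : Γ} {x x' : Dk n} (h : ‖(x : Fin n → ℝ)‖ ≠ 1)
    (e : ch φ g x = ch φ g' x') : g = g' ∧ x = x' := by
  by_cases h' : ‖(x' : Fin n → ℝ)‖ = 1
  · exact absurd ((ch_bd φ g' ⟨x', h'⟩).symm.trans e.symm) (ch_ne φ g x h _)
  · have h1 := (mk_eq φ).1 e
    rw [nf_int φ g x h, nf_int φ g' x' h'] at h1
    have h2 := Sigma.mk.inj (Sum.inr.inj h1)
    exact ⟨h2.1, eq_of_heq h2.2⟩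

theorem cover (y : Att φ) : (∃ a, jA φ a = y) ∨
    ∃ (g : Γ) (x : Dk n), ‖(x : Fin n → ℝ)‖ ≠ 1 ∧ ch φ g x = y := by
  obtain ⟨z, rfl⟩ := (quot_mk φ).surjective y
  rcases z with a | ⟨g, x⟩
  · exact .inl ⟨a, rfl⟩
  · by_cases h : ‖(x : Fin n → ℝ)‖ = 1
    · exact .inl ⟨_, (ch_bd φ g ⟨x, h⟩).symm⟩
    · exact .inr ⟨g, x, h, rfl⟩

theorem isOpen_att {O : Set (Att φ)} :
    IsOpen O ↔ IsOpen (jA φ ⁻¹' O) ∧ ∀ g, IsOpen (ch φ g ⁻¹' O) := by
  rw [← (quot_mk φ).isOpen_preimage, isOpen_sum_iff, isOpen_sigma_iff]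
  rfl

theorem isClosed_att {O : Set (Att φ)} :
    IsClosed O ↔ IsClosed (jA φ ⁻¹' O) ∧ ∀ g, IsClosed (ch φ g ⁻¹' O) := by
  simp only [← isOpen_compl_iff, isOpen_att, preimage_compl]

theorem isClosed_bdk (n : ℕ) : IsClosed (bdk n) := isClosed_eq (continuous_nm n) continuous_const

theorem closedEmb : IsClosedEmbedding (jA φ) := by
  refine .of_continuous_injective_isClosedMap (jA φ).continuous (jA_inj φ) fun C hC => ?_
  rw [isClosed_att, preimage_image_eq _ (jA_inj φ)]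
  refine ⟨hC, fun g => ?_⟩
  have e : ch φ g ⁻¹' (jA φ '' C) = Subtype.val '' (φ g ⁻¹' C) := by
    ext x
    constructor
    · rintro ⟨a, ha, h⟩
      by_cases hx : ‖(x : Fin n → ℝ)‖ = 1
      · refine ⟨⟨x, hx⟩, ?_, rfl⟩
        have := jA_inj φ (h.trans (ch_bd φ g ⟨x, hx⟩))
        rwa [this] at ha
      · exact absurd h (ch_ne φ g x hx a)
    · rintro ⟨y, hy, rfl⟩
      exact ⟨_, hy, (ch_bd φ g y).symm⟩
  rw [e]
  exact (isClosed_bdk n).isClosedEmbedding_subtypeVal.isClosedMap _ (hC.preimage (φ g).continuous)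

/-- the universal property, with a locally compact space of parameters -/
theorem lift {P X : Type} [TopologicalSpace P] [LocallyCompactSpace P] [TopologicalSpace X]
    (f : C(P × A, X)) (F : Γ → C(P × Dk n, X))
    (h : ∀ g p (x : bdk n), F g (p, x) = f (p, φ g x)) :
    ∃ G : C(P × Att φ, X), (∀ p a, G (p, jA φ a) = f (p, a)) ∧
      ∀ g p x, G (p, ch φ g x) = F g (p, x) := by
  let e : Pc A Γ n → C(P, X) := Sum.elim
    (fun a => (f.comp ContinuousMap.prodSwap).curry a)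
    (fun q => ((F q.1).comp ContinuousMap.prodSwap).curry q.2)
  have he : Continuous e := continuous_sum_dom.2 ⟨(f.comp ContinuousMap.prodSwap).curry.continuous,
    continuous_sigma fun g => ((F g).comp ContinuousMap.prodSwap).curry.continuous⟩
  have hn : ∀ z, e (nf φ z) = e z := by
    rintro (a | ⟨g, x⟩)
    · rfl
    · by_cases hx : ‖(x : Fin n → ℝ)‖ = 1
      · rw [nf_bd φ g x hx]
        exact ContinuousMap.ext fun p => (h g p ⟨x, hx⟩).symm
      · rw [nf_int φ g x hx]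
  let E : C(Att φ, C(P, X)) := ⟨Quotient.lift e fun z w hzw => by
    rw [← hn z, ← hn w, show nf φ z = nf φ w from hzw], he.quotient_lift _⟩
  exact ⟨E.uncurry.comp ContinuousMap.prodSwap, fun _ _ => rfl, fun _ _ _ => rfl⟩

/-- the universal property -/
theorem lift0 {X : Type} [TopologicalSpace X] (f : C(A, X)) (F : Γ → C(Dk n, X))
    (h : ∀ g (x : bdk n), F g x = f (φ g x)) :
    ∃ G : C(Att φ, X), (∀ a, G (jA φ a) = f a) ∧ ∀ g x, G (ch φ g x) = F g x := by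
  obtain ⟨G, h1, h2⟩ := lift φ (P := Unit) (f.comp ContinuousMap.snd)
    (fun g => (F g).comp ContinuousMap.snd) fun g _ x => h g x
  exact ⟨G.comp ⟨fun y => ((), y), by fun_prop⟩, h1 (), fun g => h2 g ()⟩

/-- the norm -/
theorem exists_nu : ∃ ν : C(Att φ, ℝ), (∀ a, ν (jA φ a) = 1) ∧
    ∀ g (x : Dk n), ν (ch φ g x) = ‖(x : Fin n → ℝ)‖ :=
  lift0 φ (ContinuousMap.const A 1) (fun _ => ⟨_, continuous_nm n⟩) fun _ x => x.2

/-- the expansion -/
theorem exists_rho : ∃ ρ : C(I × Att φ, Att φ), (∀ t a, ρ (t, jA φ a) = jA φ a) ∧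
    ∀ g t x, ρ (t, ch φ g x) = ch φ g (expd n t x) :=
  lift φ ((jA φ).comp ContinuousMap.snd) (fun g => (ch φ g).comp ⟨_, continuous_expd n⟩)
    fun g t x => by
      change ch φ g (expd n t x) = jA φ (φ g x)
      rw [expd_bd n t x x.2, ch_bd]

theorem isOpen_img (g : Γ) {U : Set (Dk n)} (hU : IsOpen U)
    (h1 : ∀ x : Dk n, x ∈ U → ‖(x : Fin n → ℝ)‖ < 1) : IsOpen (ch φ g '' U) := by
  rw [isOpen_att]
  refine ⟨?_, fun g' => ?_⟩
  · have e : jA φ ⁻¹' (ch φ g '' U) = ∅ :=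
      eq_empty_of_forall_notMem fun a ⟨x, hx, h⟩ => ch_ne φ g x (h1 x hx).ne a h.symm
    rw [e]
    exact isOpen_empty
  · by_cases hg : g = g'
    · subst hg
      have e : ch φ g ⁻¹' (ch φ g '' U) = U := by
        refine Subset.antisymm (fun y ⟨x, hx, h⟩ => ?_) (subset_preimage_image _ _)
        rwa [← (ch_inj φ (h1 x hx).ne h).2]
      rwa [e]
    · have e : ch φ g' ⁻¹' (ch φ g '' U) = ∅ :=
        eq_empty_of_forall_notMem fun y ⟨x, hx, h⟩ => hg (ch_inj φ (h1 x hx).ne h).1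
      rw [e]
      exact isOpen_empty

theorem cellData : CellData n Γ univ (range (jA φ)) (ch φ) where
  sub := subset_univ _
  mem := fun _ _ => mem_univ _
  bdry := fun g x h => ⟨_, (ch_bd φ g ⟨x, h⟩).symm⟩
  int := fun g x h ⟨a, ha⟩ => ch_ne φ g x h.ne a ha
  cover := fun y _ => (cover φ y).imp id fun ⟨g, x, _, h⟩ => ⟨g, x, h⟩
  inj := fun _ _ _ _ h _ e => ch_inj φ h.ne e
  openV := fun g U hU h => ⟨_, isOpen_img φ g hU h, inter_univ _⟩
  openW := by
    obtain ⟨ν, h1, h2⟩ := exists_nu φ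
    refine ⟨ν ⁻¹' Ioi (1 / 2), isOpen_Ioi.preimage ν.continuous, ?_⟩
    ext y
    simp only [inter_univ, mem_preimage, mem_Ioi, mem_setOf_eq, mem_univ, true_and]
    refine ⟨fun h g x e => by rwa [← e, h2] at h, fun h => ?_⟩
    rcases cover φ y with ⟨a, rfl⟩ | ⟨g, x, -, rfl⟩
    · rw [h1]; norm_num
    · rw [h2]; exact h g x rfl
  htpy := by
    obtain ⟨ρ, h1, h2⟩ := exists_rho φ
    refine ⟨⟨fun q => ⟨ρ (q.1, q.2.1), mem_univ _⟩, by fun_prop⟩, fun y => Subtype.ext ?_,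
      fun t y ⟨a, ha⟩ => Subtype.ext ?_, fun t g x => h2 g t x⟩
    · change ρ (0, y.1) = y.1
      rcases cover φ y.1 with ⟨a, ha⟩ | ⟨g, x, -, ha⟩
      · rw [← ha, h1]
      · rw [← ha, h2, expd_zero]
    · change ρ (t, y.1) = y.1
      rw [← ha, h1]

theorem norm_expd {x : Dk n} (h : 1 / 2 < ‖(x : Fin n → ℝ)‖) :
    ‖(expd n 1 x : Fin n → ℝ)‖ = 1 := by
  change ‖((1 + ((1 : I) : ℝ)) / max 1 ((1 + ((1 : I) : ℝ)) * ‖(x : Fin n → ℝ)‖)) •
    (x : Fin n → ℝ)‖ = 1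
  have e : (1 + ((1 : I) : ℝ)) = 2 := by norm_num
  rw [e, max_eq_right (by linarith), norm_smul, Real.norm_of_nonneg (by positivity)]
  field_simp

instance t2 [T2Space A] : T2Space (Att φ) := by
  obtain ⟨ν, n1, n2⟩ := exists_nu φ
  obtain ⟨ρ, r1, r2⟩ := exists_rho φ
  refine ⟨fun y z hyz => ?_⟩
  by_cases hν : ν y = ν z
  swap
  · exact separated_by_continuous ν.continuous hν
  rcases cover φ y with ⟨a, rfl⟩ | ⟨g, x, hx, rfl⟩
  · rcases cover φ z with ⟨b, rfl⟩ | ⟨g, x, hx, rfl⟩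
    · obtain ⟨U, V, hU, hV, ha, hb, hd⟩ := t2_separation (fun e : a = b => hyz (by rw [e]))
      obtain ⟨U', hU', rfl⟩ := (closedEmb φ).isInducing.isOpen_iff.1 hU
      obtain ⟨V', hV', rfl⟩ := (closedEmb φ).isInducing.isOpen_iff.1 hV
      have hr : Continuous fun y => ρ (1, y) := by fun_prop
      refine ⟨ν ⁻¹' Ioi (1 / 2) ∩ (fun y => ρ (1, y)) ⁻¹' U', (fun y => ρ (1, y)) ⁻¹' V',
        (isOpen_Ioi.preimage ν.continuous).inter (hU'.preimage hr), hV'.preimage hr,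
        ⟨by simp only [mem_preimage, n1, mem_Ioi]; norm_num,
          by simpa only [mem_preimage, r1] using ha⟩,
        by simpa only [mem_preimage, r1] using hb, disjoint_left.2 fun w ⟨h1, h2⟩ h3 => ?_⟩
      have key : ∃ c, jA φ c = ρ (1, w) := by
        rcases cover φ w with ⟨c, rfl⟩ | ⟨g, x, -, rfl⟩
        · exact ⟨c, (r1 1 c).symm⟩
        · rw [mem_preimage, n2] at h1
          exact ⟨_, (ch_bd φ g ⟨_, norm_expd h1⟩).symm.trans (r2 g 1 x).symm⟩
      obtain ⟨c, hc⟩ := key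
      rw [mem_preimage, ← hc] at h2 h3
      exact disjoint_left.1 hd h2 h3
    · rw [n1, n2] at hν
      exact absurd hν.symm hx
  · rcases cover φ z with ⟨b, rfl⟩ | ⟨g', x', hx', rfl⟩
    · rw [n1, n2] at hν
      exact absurd hν hx
    · have o : IsOpen {x : Dk n | ‖(x : Fin n → ℝ)‖ < 1} :=
        isOpen_lt (continuous_nm n) continuous_const
      have l := (norm_le n x).lt_of_ne hx
      have l' := (norm_le n x').lt_of_ne hx'
      by_cases hg : g = g'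
      · subst hg
        obtain ⟨U, V, hU, hV, ha, hb, hd⟩ := t2_separation (fun e : x = x' => hyz (by rw [e]))
        refine ⟨_, _, isOpen_img φ g (hU.inter o) fun _ h => h.2,
          isOpen_img φ g (hV.inter o) fun _ h => h.2, ⟨x, ⟨ha, l⟩, rfl⟩, ⟨x', ⟨hb, l'⟩, rfl⟩,
          disjoint_left.2 ?_⟩
        rintro _ ⟨u, hu, rfl⟩ ⟨v, hv, e⟩
        have := (ch_inj φ (ne_of_lt hv.2) e).2
        subst this
        exact disjoint_left.1 hd hu.1 hv.1
      · refine ⟨_, _, isOpen_img φ g o fun _ h => h, isOpen_img φ g' o fun _ h => h,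
          ⟨x, l, rfl⟩, ⟨x', l', rfl⟩, disjoint_left.2 ?_⟩
        rintro _ ⟨u, hu, rfl⟩ ⟨v, hv, e⟩
        exact hg (ch_inj φ (ne_of_lt hv) e).1.symm

end Vale.Agent.P263B39
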