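import Vale.Agent.P263B15.Rows
import Vale.Agent.P263B39.Core

/-! P263B: the row `ATT`. -/

namespace Vale.Agent.P263B39

theorem att : P263B15.ATT := fun _ _ _ _ _ _ φ =>
  ⟨Att φ, inferInstance, jA φ, ch φ, t2 φ, (closedEmb φ).isEmbedding, cellData φ, ch_bd φ⟩

end Vale.Agent.P263B39
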