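import Vale.Agent.P263B15.Rows

/-! P263B: the row `KILL1`. -/

set_option linter.all false

open Topology Set

namespace Vale.Agent.P263B39

open Vale.Agent.P246.T Vale.Agent.P263.AD.Freu Vale.Agent.P263B15 Vale.Agent.P263.T0.SphH
open Vale.Agent.P178.H551 (IsSm hur)

/-- the face `i` of the simplex, in the boundary of the cube -/
noncomputable def fc (k : ℕ) (i : Fin (k + 1)) : C(Dl k, bdk k) :=
  ⟨fun v => ⟨hmC k (face k i v), bdk_of_hmC ⟨i, CV.face_self k i v⟩⟩, by fun_prop⟩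

theorem fc_val (k : ℕ) (i : Fin (k + 1)) (v : Dl k) : (fc k i v).1 = hmS k (face k i v) := rfl

theorem fc_surj (k : ℕ) (x : bdk k) : ∃ i y, fc k i y = x := by
  obtain ⟨i, hi⟩ := (hmS_spec k ((hmS k).symm x)).2 (by
    rw [Homeomorph.apply_symm_apply]; exact x.2)
  obtain ⟨y, hy⟩ := CV.exists_face i hi
  exact ⟨i, y, Subtype.ext (by rw [fc_val, hy, Homeomorph.apply_symm_apply])⟩

theorem glue0 {J X Y A : Type} [Finite J] [TopologicalSpace X] [CompactSpace X]
    [TopologicalSpace Y] [T2Space Y] [TopologicalSpace A] (f : J → C(X, Y)) (s : J → C(X, A))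
    (hs : ∀ y, ∃ i x, f i x = y) (h : ∀ i j v w, f i v = f j w → s i v = s j w) :
    ∃ φ : C(Y, A), ∀ i, φ.comp (f i) = s i := by
  let p : C((Σ _ : J, X), Y) := ⟨fun q => f q.1 q.2, continuous_sigma fun i => (f i).continuous⟩
  let g : C((Σ _ : J, X), A) := ⟨fun q => s q.1 q.2, continuous_sigma fun i => (s i).continuous⟩
  have hq : IsQuotientMap p := p.continuous.isClosedMap.isQuotientMap p.continuous fun y =>
    let ⟨i, x, e⟩ := hs y; ⟨⟨i, x⟩, e⟩
  have hf : Function.FactorsThrough g p := fun a b e => h _ _ _ _ e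
  exact ⟨hq.lift g hf, fun i => ContinuousMap.ext fun v =>
    DFunLike.congr_fun (hq.lift_comp g hf) ⟨i, v⟩⟩

theorem glue {A : Type} [TopologicalSpace A] {k : ℕ} (s : Fin (k + 1) → C(Dl k, A))
    (h : ∀ i j v w, face k i v = face k j w → s i v = s j w) :
    ∃ φ : C(bdk k, A), ∀ i, φ.comp (fc k i) = s i :=
  glue0 (fc k) s (fc_surj k) fun i j v w e => h i j v w ((hmS k).injective (by
    rw [← fc_val, ← fc_val, e]))

theorem kill1 : KILL1 := by
  intro A _ a₀ m σ hσ
  let s : Fin (m + 3) → C(Dl (m + 2), A) := Fin.cons σ fun _ => ContinuousMap.const _ a₀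
  have hs : ∀ i, IsSm a₀ (s i) := fun i =>
    Fin.cases hσ (fun _ => P178.H551.isSm_const a₀ _) i
  obtain ⟨φ, hφ⟩ := glue s fun _ _ _ _ e => P178.H551.match_sm hs e
  refine ⟨φ, ∑ i : Fin (m + 3), Finsupp.single (fc (m + 2) i) (1 * (-1 : ℤ) ^ (i : ℕ)), ?_, ?_⟩
  · rw [zt, bd_single, map_sum]
    exact Finset.sum_congr rfl fun i _ => push_single _ _ _ _
  · refine ⟨Finsupp.single (ContinuousMap.const _ a₀) 1, ?_⟩
    rw [bd_single, map_sum, Fin.sum_univ_succ, Fin.sum_univ_succ (n := m + 2), hur]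
    simp only [push_single, hφ, s, Fin.cons_zero, Fin.cons_succ, ContinuousMap.const_comp,
      Fin.val_zero, pow_zero, mul_one]
    abel

end Vale.Agent.P263B39
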