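import Vale.Agent.P263B15.Rows

/-! P263B: the row `EV`. -/

set_option linter.all false

open Topology Set OnePoint Filter

namespace Vale.Agent.P263B39

open Vale.Agent.P246.T Vale.Agent.P263.AD.Freu Vale.Agent.P263B15

variable {Z : Type} [TopologicalSpace Z] (z₀ : Z)

/-- the evaluation on the ambient space -/
noncomputable def evF (p : OnePoint (ℝ × ℝ) × Ext (Lp z₀)) : Z :=
  OnePoint.elim p.1 z₀ fun w => Option.elim p.2 z₀ fun k : Lp z₀ => k.1.1 (cl ((w.2 + 1) / 2))

theorem evF_at (w : ℝ × ℝ) (k : Lp z₀) :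
    ContinuousAt (evF z₀) ((w : OnePoint (ℝ × ℝ)), Ext.of k) := by
  have h := (OnePoint.isOpenEmbedding_coe (X := ℝ × ℝ)).prodMap
    (Ext.isOpenEmbedding_of (K := Lp z₀))
  refine (h.continuousAt_iff (g := evF z₀) (x := (w, k))).1 (Continuous.continuousAt ?_)
  change Continuous fun q : (ℝ × ℝ) × Lp z₀ => q.2.1.1 (cl ((q.1.2 + 1) / 2))
  exact continuous_pp (continuous_subtype_val.comp continuous_snd)
    (continuous_cl.comp (by fun_prop))

/-- the reparametrization -/
noncomputable def rho : C(I, I) :=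
  ⟨fun t => cl (((2 * (t : ℝ) - 1) / max (1 / 2) (1 - |2 * (t : ℝ) - 1|) + 1) / 2), by
    refine continuous_cl.comp (Continuous.div_const (Continuous.add (Continuous.div
      (by fun_prop) (by fun_prop) fun t => ?_) continuous_const) _)
    exact (lt_max_of_lt_left (by norm_num)).ne'⟩

theorem rho_eq {t : I} {τ : ℝ} (h : ps t = (τ : OnePoint ℝ)) : cl ((τ + 1) / 2) = rho t := by
  set u := 2 * (t : ℝ) - 1 with hu
  have h1 : 1 - |u| ≠ 0 := by
    intro h0
    have h2 : ps t = dv (u, 1 - |u|) := rfl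
    rw [h2, h0, dv_zero] at h
    exact OnePoint.infty_ne_coe _ h
  have h2 : 0 < 1 - |u| := by
    refine lt_of_le_of_ne ?_ h1.symm
    have ht0 := t.2.1
    have ht1 := t.2.2
    rw [sub_nonneg, abs_le]
    constructor <;> linarith
  have h3 : τ = u / (1 - |u|) := by
    have h4 : ps t = (((1 - |u|)⁻¹ • u : ℝ) : OnePoint ℝ) := dv_of_ne h1
    rw [← OnePoint.coe_injective (h4.symm.trans h), smul_eq_mul, inv_mul_eq_div]
  change _ = cl ((u / max (1 / 2) (1 - |u|) + 1) / 2)
  rcases le_total (1 / 2) (1 - |u|) with h5 | h5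
  · rw [max_eq_right h5, h3]
  · rw [max_eq_left h5, h3]
    rcases le_total 0 u with h6 | h6
    · rw [abs_of_nonneg h6] at h2 h5 ⊢
      have h7 : 1 ≤ u / (1 - u) := by rw [le_div_iff₀ h2]; linarith
      rw [cl_of_one_le (by linarith), cl_of_one_le (by linarith)]
    · rw [abs_of_nonpos h6] at h2 h5 ⊢
      have h7 : u / (1 - -u) ≤ -1 := by rw [div_le_iff₀ h2]; linarith
      rw [cl_of_nonpos (by linarith), cl_of_nonpos (by linarith)]

theorem ev_row : EV := by
  intro Z _ z₀
  refine ⟨⟨fun p => evF z₀ p.1, continuous_iff_continuousAt.2 fun p => ?_⟩, rho, ?_, ?_, rfl,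
    fun x τ t k h ht => ?_⟩
  · rcases Su.cases p with rfl | ⟨w, k, h, rfl⟩
    · have hO : IsOpen ((↑) '' (Metric.closedBall (0 : ℝ × ℝ) 1) : Set (OnePoint (ℝ × ℝ)))ᶜ :=
        OnePoint.isOpen_compl_image_coe.2
          ⟨Metric.isClosed_closedBall, isCompact_closedBall _ _⟩
      refine (continuousAt_const (y := z₀)).congr ?_
      filter_upwards [(hO.preimage Su.continuous_fst).mem_nhds
        (fun ⟨w, _, hw⟩ => OnePoint.coe_ne_infty w hw)] with q hq
      rcases Su.cases q with rfl | ⟨⟨x, τ⟩, k, h, rfl⟩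
      · rfl
      · change z₀ = k.1.1 (cl ((τ + 1) / 2))
        rcases h.2 with h0 | rfl
        · have hx : x = 0 := h0
          have h1 : 1 < |τ| := by
            by_contra h2
            refine hq ⟨(x, τ), ?_, rfl⟩
            rw [mem_closedBall_zero_iff, Prod.norm_def, hx, norm_zero, Real.norm_eq_abs]
            exact max_le zero_le_one (not_lt.1 h2)
          rcases lt_abs.1 h1 with h2 | h2
          · rw [cl_of_one_le (by linarith)]
            exact (k.2 : k.1.1 1 = z₀).symm
          · rw [cl_of_nonpos (by linarith)]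
            exact k.1.2.symm
        · rfl
    · exact ContinuousAt.comp_of_eq (evF_at z₀ w k) continuous_subtype_val.continuousAt rfl
  · exact cl_of_nonpos (by norm_num)
  · exact cl_of_one_le (by norm_num)
  · rw [← rho_eq ht]
    rfl

end Vale.Agent.P263B39
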